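import Vale.Agent.H37.KTV.TripleMap

/-!
The triple map `tmap a b c` of simple graphs into Boolean matrices is injective, and its
range is closed under the row-pair fibre relation of the rows `a, b` (P335, row R3, parts A, B).
-/

namespace Vale.Agent.H62

open Finset SimpleGraph
open scoped Classical
open Vale.Agent.H90 (dot avgRel RelP SameMarg rowSum colSum)
open Vale.Agent.H40.KTV
open Vale.Agent.H37.KTV

variable {V : Type} [Fintype V]

omit [Fintype V] in
/-- one direction of injectivity: equal matrices give the same edges -/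
theorem tmap_adj_imp (a b c : V) (hab : a ≠ b) (hbc : b ≠ c) (hac : a ≠ c)
    {G H : SimpleGraph V} (hGH : tmap a b c G = tmap a b c H) (x y : V) (hxy : G.Adj x y) :
    H.Adj x y := by
  have hs : ∀ r z, (G.Adj r z ∧ z ≠ a ∧ z ≠ b ∧ z ≠ c) ↔ (H.Adj r z ∧ z ≠ a ∧ z ≠ b ∧ z ≠ c) := by
    intro r z
    rw [← tmap_some, ← tmap_some, hGH]
  have hn : ∀ r, ((r = a ∧ ¬ G.Adj b c) ∨ (r = b ∧ ¬ G.Adj a c) ∨ (r = c ∧ ¬ G.Adj a b)) ↔
      ((r = a ∧ ¬ H.Adj b c) ∨ (r = b ∧ ¬ H.Adj a c) ∨ (r = c ∧ ¬ H.Adj a b)) := by
    intro r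
    rw [← tmap_none, ← tmap_none, hGH]
  have hbc' : G.Adj b c → H.Adj b c := by
    intro hg
    by_contra hh
    have h1 := (hn a).mpr (Or.inl ⟨rfl, hh⟩)
    rcases h1 with h1 | h1 | h1
    · exact h1.2 hg
    · exact hab h1.1
    · exact hac h1.1
  have hac' : G.Adj a c → H.Adj a c := by
    intro hg
    by_contra hh
    have h1 := (hn b).mpr (Or.inr (Or.inl ⟨rfl, hh⟩))
    rcases h1 with h1 | h1 | h1
    · exact hab h1.1.symm
    · exact h1.2 hg
    · exact hbc h1.1
  have hab' : G.Adj a b → H.Adj a b := by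
    intro hg
    by_contra hh
    have h1 := (hn c).mpr (Or.inr (Or.inr ⟨rfl, hh⟩))
    rcases h1 with h1 | h1 | h1
    · exact hac h1.1.symm
    · exact hbc h1.1.symm
    · exact h1.2 hg
  by_cases hy : y ≠ a ∧ y ≠ b ∧ y ≠ c
  · exact ((hs x y).mp ⟨hxy, hy⟩).1
  by_cases hx : x ≠ a ∧ x ≠ b ∧ x ≠ c
  · exact ((hs y x).mp ⟨hxy.symm, hx⟩).1.symm
  have hy' : y = a ∨ y = b ∨ y = c := by
    by_contra hcon
    exact hy ⟨fun h => hcon (Or.inl h), fun h => hcon (Or.inr (Or.inl h)),
      fun h => hcon (Or.inr (Or.inr h))⟩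
  have hx' : x = a ∨ x = b ∨ x = c := by
    by_contra hcon
    exact hx ⟨fun h => hcon (Or.inl h), fun h => hcon (Or.inr (Or.inl h)),
      fun h => hcon (Or.inr (Or.inr h))⟩
  have hne : x ≠ y := hxy.ne
  rcases hx' with rfl | rfl | rfl <;> rcases hy' with rfl | rfl | rfl
  · exact absurd rfl hne
  · exact hab' hxy
  · exact hac' hxy
  · exact (hab' hxy.symm).symm
  · exact absurd rfl hne
  · exact hbc' hxy
  · exact (hac' hxy.symm).symm
  · exact (hbc' hxy.symm).symm
  · exact absurd rfl hne

omit [Fintype V] in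
/-- **(A)** the triple map is injective -/
theorem tmap_injective (a b c : V) (hab : a ≠ b) (hbc : b ≠ c) (hac : a ≠ c) :
    Function.Injective (tmap a b c) := by
  intro G H hGH
  ext x y
  exact ⟨tmap_adj_imp a b c hab hbc hac hGH x y, tmap_adj_imp a b c hab hbc hac hGH.symm x y⟩

set_option linter.unusedSimpArgs false in
/-- **(B)** the range of the triple map is closed under the fibre relation of the rows
`a, b` -/
theorem tmap_range (a b c : V) (hab : a ≠ b) (hbc : b ≠ c) (hac : a ≠ c) (G : SimpleGraph V)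
    (M : V → Option V → Bool) (h : RelP a b (tmap a b c G) M) : ∃ H, tmap a b c H = M := by
  obtain ⟨hrows, -, hcols⟩ := h
  -- the columns of the triple vanish
  have hzero : ∀ x, (x = a ∨ x = b ∨ x = c) → ∀ r, M r (some x) = false := by
    intro x hx r
    have h0 : colSum (tmap a b c G) (some x) = 0 := by
      unfold colSum
      rw [Finset.card_eq_zero, Finset.filter_eq_empty_iff]
      intro i _ hi
      have := (tmap_some a b c G i x).mp hi
      rcases hx with rfl | rfl | rfl
      · exact this.2.1 rfl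
      · exact this.2.2.1 rfl
      · exact this.2.2.2 rfl
    have h1 : colSum M (some x) = 0 := by rw [← hcols (some x), h0]
    unfold colSum at h1
    rw [Finset.card_eq_zero, Finset.filter_eq_empty_iff] at h1
    have := h1 (Finset.mem_univ r)
    simpa using this
  -- rows outside the triple are those of `G`
  have hrow : ∀ k, k ≠ a → k ≠ b → M k = tmap a b c G k := fun k h1 h2 => (hrows k h1 h2).symm
  have hba : b ≠ a := hab.symm
  have hcb : c ≠ b := hbc.symm
  have hca : c ≠ a := hac.symm
  -- the relation generating the graph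
  let R : V → V → Prop := fun x y =>
    ((y ≠ a ∧ y ≠ b ∧ y ≠ c) ∧ M x (some y) = true) ∨ (x = b ∧ y = c ∧ M a none = false) ∨
      (x = a ∧ y = c ∧ M b none = false) ∨ (x = a ∧ y = b ∧ M c none = false)
  have hRbc : R b c ↔ M a none = false := by
    simp only [R]
    simp [hab, hbc, hac, hba, hcb, hca]
  have hRcb : ¬ R c b := by
    simp only [R]
    simp [hab, hbc, hac, hba, hcb, hca]
  have hRac : R a c ↔ M b none = false := by
    simp only [R]
    simp [hab, hbc, hac, hba, hcb, hca]
  have hRca : ¬ R c a := by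
    simp only [R]
    simp [hab, hbc, hac, hba, hcb, hca]
  have hRab : R a b ↔ M c none = false := by
    simp only [R]
    simp [hab, hbc, hac, hba, hcb, hca]
  have hRba : ¬ R b a := by
    simp only [R]
    simp [hab, hbc, hac, hba, hcb, hca]
  have hRout : ∀ r x, x ≠ a → x ≠ b → x ≠ c → (R r x ↔ M r (some x) = true) := by
    intro r x h1 h2 h3
    simp only [R]
    simp [h1, h2, h3]
  have hRout' : ∀ r x, x ≠ a → x ≠ b → x ≠ c →
      (R x r ↔ ((r ≠ a ∧ r ≠ b ∧ r ≠ c) ∧ M x (some r) = true)) := by
    intro r x h1 h2 h3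
    simp only [R]
    simp [h1, h2, h3]
  have hadj : ∀ x y, (SimpleGraph.fromRel R).Adj x y ↔ x ≠ y ∧ (R x y ∨ R y x) :=
    fun x y => SimpleGraph.fromRel_adj R x y
  have hAbc : (SimpleGraph.fromRel R).Adj b c ↔ M a none = false := by
    rw [hadj, hRbc]
    constructor
    · rintro ⟨-, h1 | h1⟩
      · exact h1
      · exact absurd h1 hRcb
    · intro h1
      exact ⟨hbc, Or.inl h1⟩
  have hAac : (SimpleGraph.fromRel R).Adj a c ↔ M b none = false := by
    rw [hadj, hRac]
    constructor
    · rintro ⟨-, h1 | h1⟩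
      · exact h1
      · exact absurd h1 hRca
    · intro h1
      exact ⟨hac, Or.inl h1⟩
  have hAab : (SimpleGraph.fromRel R).Adj a b ↔ M c none = false := by
    rw [hadj, hRab]
    constructor
    · rintro ⟨-, h1 | h1⟩
      · exact h1
      · exact absurd h1 hRba
    · intro h1
      exact ⟨hab, Or.inl h1⟩
  refine ⟨SimpleGraph.fromRel R, ?_⟩
  apply bmat_ext
  intro r col
  cases col with
  | none =>
    rw [tmap_none, hAbc, hAac, hAab, Bool.not_eq_false, Bool.not_eq_false, Bool.not_eq_false]
    by_cases hra : r = a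
    · subst hra
      constructor
      · rintro (h1 | h1 | h1)
        · exact h1.2
        · exact absurd h1.1 hab
        · exact absurd h1.1 hac
      · intro hM
        exact Or.inl ⟨rfl, hM⟩
    by_cases hrb : r = b
    · subst hrb
      constructor
      · rintro (h1 | h1 | h1)
        · exact absurd h1.1 hra
        · exact h1.2
        · exact absurd h1.1 hbc
      · intro hM
        exact Or.inr (Or.inl ⟨rfl, hM⟩)
    by_cases hrc : r = c
    · subst hrc
      constructor
      · rintro (h1 | h1 | h1)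
        · exact absurd h1.1 hra
        · exact absurd h1.1 hrb
        · exact h1.2
      · intro hM
        exact Or.inr (Or.inr ⟨rfl, hM⟩)
    · constructor
      · rintro (h1 | h1 | h1)
        · exact absurd h1.1 hra
        · exact absurd h1.1 hrb
        · exact absurd h1.1 hrc
      · intro hM
        exfalso
        rw [hrow r hra hrb] at hM
        rcases (tmap_none a b c G r).mp hM with h1 | h1 | h1
        · exact hra h1.1
        · exact hrb h1.1
        · exact hrc h1.1
  | some x =>
    rw [tmap_some, hadj]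
    by_cases hx : x ≠ a ∧ x ≠ b ∧ x ≠ c
    · obtain ⟨hxa, hxb, hxc⟩ := hx
      rw [hRout r x hxa hxb hxc, hRout' r x hxa hxb hxc]
      constructor
      · rintro ⟨⟨hne, h1 | h2⟩, -⟩
        · exact h1
        · -- `M x (some r)` with `r` outside the triple: use the rows of `G`
          have hxr := h2.2
          rw [hrow x hxa hxb] at hxr
          have hadj' := ((tmap_some a b c G x r).mp hxr).1
          rw [hrow r h2.1.1 h2.1.2.1]
          exact (tmap_some a b c G r x).mpr ⟨hadj'.symm, hxa, hxb, hxc⟩
      · intro hM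
        refine ⟨⟨?_, Or.inl hM⟩, hxa, hxb, hxc⟩
        rintro rfl
        rw [hrow r hxa hxb] at hM
        exact (((tmap_some a b c G r r).mp hM).1).ne rfl
    · have hx' : x = a ∨ x = b ∨ x = c := by
        by_contra hcon
        exact hx ⟨fun h => hcon (Or.inl h), fun h => hcon (Or.inr (Or.inl h)),
          fun h => hcon (Or.inr (Or.inr h))⟩
      constructor
      · rintro ⟨-, h1⟩
        exact absurd h1 hx
      · intro hM
        rw [hzero x hx' r] at hM
        exact absurd hM (by simp)

end Vale.Agent.H62
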